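import Vale.Agent.P216.B7H977.ZN
import Vale.Agent.P216.H494.CovMain
import Vale.Agent.P216.Spine.Main

/-!
# P216-B7, Z12: composition of the rows
-/

set_option linter.all false

open Set Filter Topology Bundle Manifold
open scoped ContDiff

namespace Vale.Agent.P216.B7

open L250 H494
open Vale.Agent.P216.Sl Vale.Agent.P216.N929
open Vale.Agent.P216.H971B (Om0)

section topo

variable {X N : Type} [TopologicalSpace X] [TopologicalSpace N]

/-- The infinite cyclic covering along a homeomorphism. -/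
def xtCompHomeo (e : N ≃ₜ X) (h : C(X, Circle)) :
    Xt (h.comp (⟨e, e.continuous⟩ : C(N, X))) ≃ₜ Xt h where
  toFun p := ⟨(e p.1.1, p.1.2), p.2⟩
  invFun p := ⟨(e.symm p.1.1, p.1.2), by
    show h (e (e.symm p.1.1)) = ex p.1.2
    rw [e.apply_symm_apply]
    exact p.2⟩
  left_inv p := Subtype.ext (Prod.ext (e.symm_apply_apply _) rfl)
  right_inv p := Subtype.ext (Prod.ext (e.apply_symm_apply _) rfl)
  continuous_toFun := by
    refine Continuous.subtype_mk ?_ _
    exact (e.continuous.comp (continuous_fst.comp continuous_subtype_val)).prodMk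
      (continuous_snd.comp continuous_subtype_val)
  continuous_invFun := by
    refine Continuous.subtype_mk ?_ _
    exact (e.symm.continuous.comp (continuous_fst.comp continuous_subtype_val)).prodMk
      (continuous_snd.comp continuous_subtype_val)

theorem sc_comp (e : N ≃ₜ X) (h : C(X, Circle)) (hS : SimplyConnectedSpace (Xt h)) :
    SimplyConnectedSpace (Xt (h.comp (⟨e, e.continuous⟩ : C(N, X)))) :=
  (xtCompHomeo e h).toHomotopyEquiv.simplyConnectedSpace

end topo

/-- A covering with zero top classes: contradiction with Z6. -/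
theorem false_of_top (h6 : Z6Goal) (E : Type) [NormedAddCommGroup E] [NormedSpace ℝ E]
    [FiniteDimensional ℝ E] {M : Type} [MetricSpace M] [CompactSpace M] {h : C(M, Circle)} {s : ℕ}
    (hn : 1 ≤ Module.finrank ℝ E)
    (hex : ∀ w : List (M × Circle) → ZMod 2, CocL (Msp h s) (Module.finrank ℝ E) w →
      ExL (Msp h s) (Module.finrank ℝ E) w)
    (N : Type) [MetricSpace N] [CompactSpace N] [ChartedSpace E N] [PathConnectedSpace N]
    (φ : N ≃ₜ Msp h s) : False := by
  classical
  obtain ⟨w, hw, hne⟩ := h6 E N hn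
  have y₀ : N := Classical.arbitrary N
  set g : M × Circle → N := fun p => if hp : p ∈ Msp h s then φ.symm ⟨p, hp⟩ else y₀ with hg
  have hgc : ContinuousOn g (Msp h s) := by
    rw [continuousOn_iff_continuous_restrict]
    have e : (Msp h s).domRestrict g = φ.symm := by
      funext p
      show g p.1 = _
      rw [hg]
      show (if hp : p.1 ∈ Msp h s then φ.symm ⟨p.1, hp⟩ else y₀) = _
      rw [dif_pos p.2]
    rw [e]
    exact φ.symm.continuous
  have hK : IsCompact (Msp h s) :=
    (isClosed_eq (continuous_snd.pow s) (h.continuous.comp continuous_fst)).isCompact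
  have h1 := hex _ (ZN977.coc_cont (X' := univ) hK hgc (fun _ _ => mem_univ _) hw)
  have h2 := ZN977.exl_cont (X := (univ : Set N)) (X' := Msp h s) (F := fun y => (φ y).1)
    isCompact_univ (continuous_subtype_val.comp φ.continuous).continuousOn
    (fun y _ => (φ y).2) h1
  refine hne (ZN977.exl_congr (fun l _ => ?_) h2)
  rw [List.map_map]
  congr 1
  conv_rhs => rw [← List.map_id l]
  refine List.map_congr_left fun y _ => ?_
  show g (φ y).1 = y
  rw [hg]
  show (if hp : (φ y).1 ∈ Msp h s then φ.symm ⟨(φ y).1, hp⟩ else y₀) = y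
  rw [dif_pos (φ y).2]
  exact φ.symm_apply_apply y

section main

variable (h2 : Z2Goal) (h3 : Z3Goal) (h4 : Z4Goal) (h5 : Z5Goal) (h6 : Z6Goal) (h7 : Z7Goal)
  (h9 : Z9Goal) (h10 : Z10Goal) (h11 : Z11Goal) (hB : BppGoal)

include h10 h11 hB in
/-- The end: a lifted class in the first non-zero degree. -/
theorem false_of_class {M : Type} [MetricSpace M] [CompactSpace M] [PathConnectedSpace M] {ρ : ℝ}
    (hρ : 0 < ρ) (hU : LS.UniqSeg M ρ) (G : GeoList M) (h : C(M, Circle))
    (hS : SimplyConnectedSpace (Xt h)) (k : Type) [Field k] {j : ℕ} (hj : 2 ≤ j)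
    (hNZ : ∀ i, 1 ≤ i → i < j → NZ k h i) (U : List M → k) (nU : Nrm U)
    (cU : CocL (univ : Set M) j U)
    (hne : ∃ R, ¬ ExL (Slb h R) j fun l => U (l.map Prod.fst)) : False := by
  obtain ⟨q, rfl⟩ : ∃ q, j = q + 1 := ⟨j - 1, by omega⟩
  obtain ⟨x, hx⟩ := hB M ρ hρ hU G (h11 M h hS)
  obtain ⟨T, N0, h1⟩ := h10 M ρ hρ hU h hS k q (by omega) (fun i hi hi' => hNZ i hi (by omega))
    U nU cU hne x
  obtain ⟨N1, h1'⟩ := hx k q U (by omega) nU cU T
  exact h1 (max N0 N1) (le_max_left _ _) (h1' _ (le_max_right _ _))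

include h2 h3 h4 h5 h6 h7 h9 h10 h11 hB in
/-- A closed Riemannian manifold with a map to the circle whose infinite cyclic covering is
simply connected. -/
theorem core (E : Type) [NormedAddCommGroup E] [NormedSpace ℝ E] [FiniteDimensional ℝ E]
    (M : Type) [MetricSpace M] [CompactSpace M] [ChartedSpace E M] [IsManifold 𝓘(ℝ, E) ∞ M]
    [RiemannianBundle (fun x : M => TangentSpace 𝓘(ℝ, E) x)]
    [IsContMDiffRiemannianBundle 𝓘(ℝ, E) ∞ E (fun x : M => TangentSpace 𝓘(ℝ, E) x)]
    [IsRiemannianManifold 𝓘(ℝ, E) M] (hn : 2 ≤ Module.finrank ℝ E) (h : C(M, Circle))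
    (hS : SimplyConnectedSpace (Xt h)) : (primeClosedGeodesicImages M).Infinite := by
  classical
  obtain ⟨ρ, hρ, hU, _⟩ := Geo.exists_uniqSeg E M
  set n := Module.finrank ℝ E with hn'
  by_cases hA : ∀ j, 1 ≤ j → j ≤ n → NZ (ZMod 2) h j
  · -- all classes die
    obtain ⟨s, hs, hex⟩ := h7 M h (ZMod 2) n hn (hA n (by omega) le_rfl)
      (hA (n - 1) (by omega) (by omega))
    obtain ⟨hc, hcon, hloc, hsc⟩ := h2 M h hS s hs
    refine infinite_of_localHomeomorph (E := E) hloc ?_
    intro N _ _ _ _ _ _ _ hN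
    obtain ⟨φ⟩ := hN
    exfalso
    have hNe : Nonempty N := by
      obtain ⟨p⟩ := hcon.toNonempty
      exact ⟨φ.symm p⟩
    have : PathConnectedSpace N := ⟨hNe, H126U.joined_of_riemannian E⟩
    exact false_of_top h6 E (by omega) hex N φ
  · -- the first degree with a class
    push Not at hA
    have hex : ∃ j, 1 ≤ j ∧ j ≤ n ∧ ¬ NZ (ZMod 2) h j := hA
    obtain ⟨hj1, hjn, hjN⟩ := Nat.find_spec hex
    set j := Nat.find hex with hj
    have hmin : ∀ i, 1 ≤ i → i < j → NZ (ZMod 2) h i := by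
      intro i hi hij
      by_contra hc
      exact Nat.find_min hex hij ⟨hi, by omega, hc⟩
    have hj2 : 2 ≤ j := by
      rcases hj1.lt_or_eq with h1 | h1
      · exact h1
      · exfalso
        rw [← h1] at hjN
        exact hjN (h5 M ρ hρ hU h hS (ZMod 2))
    obtain ⟨s, hs, U, cU, hne⟩ := h9 M ρ hρ hU h j hj1 hjN
    obtain ⟨hc, hcon, hloc, hsc⟩ := h2 M h hS s hs
    refine infinite_of_localHomeomorph (E := E) hloc ?_
    intro N _ _ _ _ _ _ _ hN
    obtain ⟨φ⟩ := hN
    intro hfin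
    have hNe : Nonempty N := by
      obtain ⟨p⟩ := hcon.toNonempty
      exact ⟨φ.symm p⟩
    have : PathConnectedSpace N := ⟨hNe, H126U.joined_of_riemannian E⟩
    obtain ⟨ρ', hρ', hU', _⟩ := Geo.exists_uniqSeg E N
    obtain ⟨G⟩ := exists_geoList (nonBranching_of_riemannian (E := E) (M := N)) hfin
    set h' : C(N, Circle) := ⟨fun y => (φ y).1.2,
      continuous_snd.comp (continuous_subtype_val.comp φ.continuous)⟩ with hh'
    have hh : ∀ y, h' y = (φ y).1.2 := fun y => rfl
    obtain ⟨U', nU', cU', hne'⟩ := h4 M h s hs N φ h' hh (ZMod 2) j hj1 U cU hne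
    exact false_of_class h10 h11 hB hρ' hU' G h' (hsc N φ h' hh) (ZMod 2) hj2
      (fun i hi hij => h3 M h s hs N φ h' hh (ZMod 2) i hi (hmin i hi hij)) U' nU' cU' hne'

include h2 h3 h4 h5 h6 h7 h9 h10 h11 hB in
/-- **Z12**: closed manifolds with virtually infinite cyclic fundamental group. -/
theorem virtZ (h1 : Z1Goal) : VirtZGoal := by
  intro E _ _ _ M _ _ _ _ _ _ _ hn x₀ H hfi hH
  obtain ⟨X, _, _, _, _, f, h, hf, hS⟩ := h1 E M x₀ H hfi hH
  refine infinite_of_localHomeomorph (E := E) hf ?_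
  intro N _ _ _ _ _ _ _ hN
  obtain ⟨e⟩ := hN
  exact core h2 h3 h4 h5 h6 h7 h9 h10 h11 hB E N hn _ (sc_comp e h hS)

end main

end Vale.Agent.P216.B7
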