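import Vale.Agent.P216.B7.VirtZ
import Vale.Agent.P216.H808.Z10All

/-!
# P216-B7: closed manifolds with virtually infinite cyclic fundamental group
-/

namespace Vale.Agent.P216.B7

/-- **Every Riemannian metric on a closed manifold of dimension `≥ 2` whose fundamental group has an
infinite cyclic subgroup of finite index has infinitely many closed geodesics.** -/
theorem virtZGoal : VirtZGoal := virtZ_of H808.z10Goal

end Vale.Agent.P216.B7
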