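import Vale.Agent.P216.H971B.Props
import Vale.Agent.P216.H126U.U5
import Mathlib.Analysis.SpecialFunctions.Complex.CircleAddChar

/-!
# P216-B7: closed manifolds with virtually infinite cyclic fundamental group.
# Literal statements of the rows.

`h : C(M, Circle)`. `Xt h = {(x, r) : h x = exp (2 π i r)} ⊂ M × ℝ` is the infinite cyclic covering,
`Slb h R` its part over `|r| ≤ R`, `Msp h s = {(x, z) : z ^ s = h x} ⊂ M × Circle` the covering with
`s` sheets. `NZ k h j`: the classes of degree `j` of the large slabs are zero on the small slabs.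
-/

set_option linter.all false

open Set Bundle Manifold
open scoped ContDiff

namespace Vale.Agent.P216.B7

open Vale.Agent.P216.Sl Vale.Agent.P216.N929
open Vale.Agent.P216.H971B (Om0)

section defs

variable {M : Type}

/-- `exp (2 π i r)` -/
noncomputable def ex (r : ℝ) : Circle := Circle.exp (2 * Real.pi * r)

/-- The infinite cyclic covering. -/
def Xt [TopologicalSpace M] (h : C(M, Circle)) : Set (M × ℝ) := {p | h p.1 = ex p.2}

/-- A slab. -/
def Slb [TopologicalSpace M] (h : C(M, Circle)) (R : ℝ) : Set (M × ℝ) := {p | p ∈ Xt h ∧ |p.2| ≤ R}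

/-- The cyclic covering with `s` sheets. -/
def Msp [TopologicalSpace M] (h : C(M, Circle)) (s : ℕ) : Set (M × Circle) := {p | p.2 ^ s = h p.1}

/-- The projection of `Xt h` to `Msp h s`. -/
noncomputable def prs (s : ℕ) (p : M × ℝ) : M × Circle := (p.1, ex (p.2 / s))

/-- The classes of degree `j` of the large slabs are zero on the small slabs. -/
def NZ (k : Type) [Field k] [MetricSpace M] (h : C(M, Circle)) (j : ℕ) : Prop :=
  ∀ R : ℝ, ∃ R' : ℝ, R ≤ R' ∧ ∀ f : List (M × ℝ) → k, CocL (Slb h R') j f → ExL (Slb h R) j f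

end defs

/-- **Z1** (the map to the circle on a finite covering). -/
def Z1Goal : Prop := ∀ (E : Type) [NormedAddCommGroup E] [NormedSpace ℝ E] [FiniteDimensional ℝ E]
    (M : Type) [MetricSpace M] [CompactSpace M] [ChartedSpace E M]
    [RiemannianBundle (fun x : M => TangentSpace 𝓘(ℝ, E) x)]
    [IsRiemannianManifold 𝓘(ℝ, E) M] (x₀ : M) (H : Subgroup (FundamentalGroup M x₀)),
    H.FiniteIndex → Nonempty (Multiplicative ℤ ≃* H) →
    ∃ (X : Type) (_ : TopologicalSpace X) (_ : CompactSpace X) (_ : T2Space X)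
      (_ : ConnectedSpace X) (f : X → M) (h : C(X, Circle)), IsLocalHomeomorph f ∧
        SimplyConnectedSpace (Xt h)

/-- **Z2** (the cyclic coverings). -/
def Z2Goal : Prop := ∀ (M : Type) [MetricSpace M] [CompactSpace M] (h : C(M, Circle)),
  SimplyConnectedSpace (Xt h) → ∀ s : ℕ, 1 ≤ s →
    CompactSpace (Msp h s) ∧ ConnectedSpace (Msp h s) ∧
    IsLocalHomeomorph (fun p : Msp h s => p.1.1) ∧
    ∀ (N : Type) [MetricSpace N] (φ : N ≃ₜ Msp h s) (h' : C(N, Circle)),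
      (∀ y, h' y = (φ y).1.2) → SimplyConnectedSpace (Xt h')

/-- **Z3** (transfer of `NZ` to the cyclic coverings). -/
def Z3Goal : Prop := ∀ (M : Type) [MetricSpace M] [CompactSpace M] (h : C(M, Circle)) (s : ℕ),
  1 ≤ s → ∀ (N : Type) [MetricSpace N] [CompactSpace N] (φ : N ≃ₜ Msp h s) (h' : C(N, Circle)),
    (∀ y, h' y = (φ y).1.2) → ∀ (k : Type) [Field k] (j : ℕ), 1 ≤ j → NZ k h j → NZ k h' j

/-- **Z4** (transfer of a class). -/
def Z4Goal : Prop := ∀ (M : Type) [MetricSpace M] [CompactSpace M] (h : C(M, Circle)) (s : ℕ),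
  1 ≤ s → ∀ (N : Type) [MetricSpace N] [CompactSpace N] (φ : N ≃ₜ Msp h s) (h' : C(N, Circle)),
    (∀ y, h' y = (φ y).1.2) → ∀ (k : Type) [Field k] (j : ℕ), 1 ≤ j →
    ∀ U : List (M × Circle) → k, CocL (Msp h s) j U →
      (∃ R, ¬ ExL (Slb h R) j fun l => U (l.map (prs s))) →
      ∃ U' : List N → k, Nrm U' ∧ CocL (univ : Set N) j U' ∧
        ∃ R, ¬ ExL (Slb h' R) j fun l => U' (l.map Prod.fst)

/-- **Z5** (degree one). -/
def Z5Goal : Prop := ∀ (M : Type) [MetricSpace M] [CompactSpace M] (ρ : ℝ), 0 < ρ →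
  LS.UniqSeg M ρ → ∀ h : C(M, Circle), SimplyConnectedSpace (Xt h) → ∀ (k : Type) [Field k],
    NZ k h 1

/-- **Z6** (the top class of a closed manifold, characteristic two). -/
def Z6Goal : Prop := ∀ (E : Type) [NormedAddCommGroup E] [NormedSpace ℝ E] [FiniteDimensional ℝ E]
    (M : Type) [MetricSpace M] [CompactSpace M] [ChartedSpace E M] [PathConnectedSpace M],
    1 ≤ Module.finrank ℝ E → ∃ w : List M → ZMod 2,
      CocL (univ : Set M) (Module.finrank ℝ E) w ∧ ¬ ExL (univ : Set M) (Module.finrank ℝ E) w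

/-- **Z7** (Mayer-Vietoris: two long arcs of a cyclic covering). -/
def Z7Goal : Prop := ∀ (M : Type) [MetricSpace M] [CompactSpace M] (h : C(M, Circle)) (k : Type)
  [Field k] (n : ℕ), 2 ≤ n → NZ k h n → NZ k h (n - 1) →
    ∃ s : ℕ, 1 ≤ s ∧ ∀ w : List (M × Circle) → k, CocL (Msp h s) n w → ExL (Msp h s) n w

/-- **Z8** (finitely many classes of a slab on a smaller slab). -/
def Z8Goal : Prop := ∀ (M : Type) [MetricSpace M] [CompactSpace M] (ρ : ℝ), 0 < ρ →
  LS.UniqSeg M ρ → ∀ (h : C(M, Circle)) (j : ℕ), 1 ≤ j → ∀ R R' : ℝ, 0 < R → R < R' →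
    ∃ (n : ℕ) (g : Fin n → List (M × ℝ) → ZMod 2), ∀ f : List (M × ℝ) → ZMod 2,
      CocL (Slb h R') j f → ∃ i, ExL (Slb h R) j fun l => f l - g i l

/-- **Z9** (pigeonhole and gluing). -/
def Z9Goal : Prop := ∀ (M : Type) [MetricSpace M] [CompactSpace M] (ρ : ℝ), 0 < ρ →
  LS.UniqSeg M ρ → ∀ (h : C(M, Circle)) (j : ℕ), 1 ≤ j → ¬ NZ (ZMod 2) h j →
    ∃ s : ℕ, 1 ≤ s ∧ ∃ U : List (M × Circle) → ZMod 2, CocL (Msp h s) j U ∧
      ∃ R, ¬ ExL (Slb h R) j fun l => U (l.map (prs s))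

/-- **Z10** (transgression). -/
def Z10Goal : Prop := ∀ (M : Type) [MetricSpace M] [CompactSpace M] [PathConnectedSpace M] (ρ : ℝ),
  0 < ρ → LS.UniqSeg M ρ → ∀ h : C(M, Circle), SimplyConnectedSpace (Xt h) →
  ∀ (k : Type) [Field k] (q : ℕ), 1 ≤ q → (∀ j, 1 ≤ j → j ≤ q → NZ k h j) →
  ∀ U : List M → k, Nrm U → CocL (univ : Set M) (q + 1) U →
    (∃ R, ¬ ExL (Slb h R) (q + 1) fun l => U (l.map Prod.fst)) →
    ∀ x : M, ∃ T N0 : ℕ, ∀ N ≥ N0, ¬ ExL (Om0 M x T) q (H140.eta N U)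

/-- **Z11** (infinitely many free homotopy classes). -/
def Z11Goal : Prop := ∀ (M : Type) [MetricSpace M] [CompactSpace M] (h : C(M, Circle)),
  SimplyConnectedSpace (Xt h) → Infinite (ZerothHomotopy (L250.LM M))

/-- The output of Theorem B'' (`H971B.bpp`). -/
def BppGoal : Prop := ∀ (M : Type) [MetricSpace M] [CompactSpace M] [PathConnectedSpace M] (ρ : ℝ),
  0 < ρ → LS.UniqSeg M ρ → H494.GeoList M → Infinite (ZerothHomotopy (L250.LM M)) →
    ∃ x : M, ∀ (k : Type) [Field k] (q : ℕ) (U : List M → k), 1 ≤ q → Nrm U →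
      CocL (univ : Set M) (q + 1) U → ∀ T : ℕ, ∃ N0 : ℕ, ∀ N ≥ N0,
        ExL (Om0 M x T) q (H140.eta N U)

/-- **Z12** (output): virtually infinite cyclic fundamental groups. -/
def VirtZGoal : Prop := ∀ (E : Type) [NormedAddCommGroup E] [NormedSpace ℝ E]
    [FiniteDimensional ℝ E]
    (M : Type) [MetricSpace M] [CompactSpace M] [ChartedSpace E M] [IsManifold 𝓘(ℝ, E) ∞ M]
    [RiemannianBundle (fun x : M => TangentSpace 𝓘(ℝ, E) x)]
    [IsContMDiffRiemannianBundle 𝓘(ℝ, E) ∞ E (fun x : M => TangentSpace 𝓘(ℝ, E) x)]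
    [IsRiemannianManifold 𝓘(ℝ, E) M], 2 ≤ Module.finrank ℝ E →
    ∀ (x₀ : M) (H : Subgroup (FundamentalGroup M x₀)), H.FiniteIndex →
    Nonempty (Multiplicative ℤ ≃* H) → (primeClosedGeodesicImages M).Infinite

end Vale.Agent.P216.B7
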