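import Vale.Agent.P216.B7.Glue
import Vale.Agent.P216.B7H550.Z1
import Vale.Agent.P216.H539Z.Z2
import Vale.Agent.P216.B7H977.ZN
import Vale.Agent.P216.B7H707.Z5
import Vale.Agent.P216.B7337.Z6
import Vale.Agent.P216.B7929.Z7
import Vale.Agent.P216.B7921.Z8
import Vale.Agent.P216.B7774.Z9
import Vale.Agent.P216.B7923.Z11
import Vale.Agent.P216.V893.Rows
import Vale.Agent.P216.H971B.BPP

/-!
# P216-B7: everything but the transgression
-/

namespace Vale.Agent.P216.B7

/-- The form (B'') of Theorem B. -/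
theorem bppGoal : BppGoal := by
  intro M _ _ _ ρ hρ hU G hπ
  exact H971B.bpp V893.rowsB.r1 V893.rowsB.r2 V893.rowsB.r2b V893.rowsB.r3 V893.rowsB.r4
    M ρ hρ hU G hπ

/-- Closed manifolds with virtually infinite cyclic fundamental group, from the transgression. -/
theorem virtZ_of (h10 : Z10Goal) : VirtZGoal :=
  virtZ H539Z.z2Goal z3Goal z4Goal z5Goal B7337.z6Goal z7Goal (z9Goal z8Goal) h10
    B7923.z11Goal bppGoal B7H550.z1Goal

end Vale.Agent.P216.B7
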