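import Vale.Agent.P216.B7.Props
import Vale.Agent.P216.H971.LowGood

/-!
# P216-B7, Z10 (transgression): literal statements of the sub-rows.

`ht h b w`: the start height of the lift of the path `w` (which ends at `b.1`) that ends at `b.2`.
`Pt h a b t`: the paths of duration `t` whose lift goes from `a` to `b`. `XSt h b σ r t`: the paths
to `b` whose lifted start is `r`-close to all points of `σ`.
-/

set_option linter.all false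

open Set BoundedContinuousFunction

namespace Vale.Agent.P216.B7

open Vale.Agent.P216.Sl Vale.Agent.P216.PS
open Vale.Agent.P216.H456 (PF)
open Vale.Agent.P216.H971B (Om0)
open Vale.Agent.P216.H971.Low (ExC Dd)

section defs

variable {M : Type} [MetricSpace M]

/-- The lift of `h ∘ w` goes from height `r` at time `0` to height `r'` at time `t`. -/
def Lif (h : C(M, Circle)) (w : ℝ →ᵇ M) (t r r' : ℝ) : Prop :=
  ∃ g : ℝ → ℝ, Continuous g ∧ (∀ u, h (w u) = ex (g u)) ∧ g 0 = r ∧ g t = r'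

open Classical in
/-- The start height of the lift of `w` which ends at `b`. -/
noncomputable def ht (h : C(M, Circle)) (b : M × ℝ) (w : ℝ →ᵇ M) : ℝ :=
  if hw : ∃ x : ℝ, ∃ t : ℝ, 0 ≤ t ∧ w ∈ PF b.1 t ∧ Lif h w t x b.2 then Classical.choose hw else 0

/-- The lifted start. -/
noncomputable def st (h : C(M, Circle)) (b : M × ℝ) (w : ℝ →ᵇ M) : M × ℝ := (w 0, ht h b w)

/-- The paths to `b` whose lifted start is `r`-close to all points of `σ`. -/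
def XSt (h : C(M, Circle)) (b : M × ℝ) (σ : List (M × ℝ)) (r t : ℝ) : Set (ℝ →ᵇ M) :=
  {w | w ∈ PF b.1 t ∧ ∀ v ∈ σ, dist (w 0) v.1 ≤ r ∧ |ht h b w - v.2| ≤ 1 / 4}

/-- The paths whose lift goes from `a` to `b`. -/
def Pt (h : C(M, Circle)) (a b : M × ℝ) (t : ℝ) : Set (ℝ →ᵇ M) :=
  {w | w ∈ P a.1 b.1 t ∧ ht h b w = a.2}

/-- The simple connectivity, non uniform. -/
def PI (h : C(M, Circle)) : Prop := ∀ a ∈ Xt h, ∀ b ∈ Xt h,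
  (∃ t : ℝ, 0 ≤ t ∧ (Pt h a b t).Nonempty) ∧ ∀ t : ℝ, 0 ≤ t → ∃ t', t ≤ t' ∧
    ∀ w ∈ Pt h a b t, ∀ w' ∈ Pt h a b t, JoinedIn (Pt h a b t') w w'

/-- The classes of degree `j` of the lifted path spaces die. -/
def PLow (k : Type) [Field k] (h : C(M, Circle)) (j : ℕ) : Prop := ∀ a ∈ Xt h, ∀ b ∈ Xt h,
  ∀ t : ℝ, 0 ≤ t → ∃ t', t ≤ t' ∧ ∀ f : List (ℝ →ᵇ M) → k, CocL (Pt h a b t') j f →
    ExC (Pt h a b t) j f

/-- The double cochain `ζ` of total length `N` is closed over the tuples of length `≤ a`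
(`H971.Low.Good` for an abstract family). -/
structure GoodA {k : Type} [Field k] {B E : Type} [PseudoMetricSpace E] (S : List B → Set E)
    (F : Finset B) (N a : ℕ) (ζ : List B → List E → k) : Prop where
  nil : ∀ l, ζ [] l = 0
  rep : ∀ (v : B) (n : ℕ), 2 ≤ n → ∀ l, ζ (List.replicate n v) l = 0
  cl : ∃ ε > 0, ∀ σ l, σ ≠ [] → σ.length ≤ a → (∀ v ∈ σ, v ∈ F) → σ.length + l.length = N + 1 →
    SmL (S σ) ε l → Dd ζ σ l = 0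

end defs

/-! ### Algebra (copy of LowStep, LowGood for an abstract family) -/

/-- **A1** (`exists_good`). -/
def A1Goal : Prop := ∀ (k : Type) [Field k] (B E : Type) [PseudoMetricSpace E]
  (S : ℕ → List B → Set E) (F : Finset B) (q : ℕ),
  (∀ n (σ τ : List B), (∀ v ∈ τ, v ∈ σ) → S n σ ⊆ S n τ) → (∀ n σ, S n σ ⊆ S (n + 1) σ) →
  (∀ m n, m < q → n ≤ q → ∀ σ : List B, σ ≠ [] → (∀ v ∈ σ, v ∈ F) → σ.length ≤ q + 2 →
    ∀ f : List E → k, CocL (S (n + 1) σ) m f → ExC (S n σ) m f) →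
  ∀ z₁ : B → List E → k, (∀ v ∈ F, CocL (S (q + 1) [v]) q (z₁ v)) →
    (∀ v ∈ F, ∀ v' ∈ F, ExC (S q [v, v']) q fun l => z₁ v' l - z₁ v l) →
    ∃ ζ : List B → List E → k, GoodA (S 0) F (q + 2) (q + 2) ζ ∧ ∀ v, ζ [v] = z₁ v

/-- **A2** (new: a zigzag with exact first column is exact). -/
def A2Goal : Prop := ∀ (k : Type) [Field k] (B E : Type) [PseudoMetricSpace E]
  (S : ℕ → List B → Set E) (F : Finset B) (q : ℕ), 1 ≤ q →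
  (∀ n (σ τ : List B), (∀ v ∈ τ, v ∈ σ) → S n σ ⊆ S n τ) → (∀ n σ, S n σ ⊆ S (n + 1) σ) →
  (∀ m n, m < q → n ≤ q → ∀ σ : List B, σ ≠ [] → (∀ v ∈ σ, v ∈ F) → σ.length ≤ q + 2 →
    ∀ f : List E → k, CocL (S (n + 1) σ) m f → ExC (S n σ) m f) →
  ∀ ζ : List B → List E → k, GoodA (S (q + 1)) F (q + 2) (q + 2) ζ →
    (∀ v ∈ F, ExC (S q [v]) q (ζ [v])) →
    ∃ β : List B → k, ∀ σ : List B, σ.length = q + 2 → (∀ v ∈ σ, v ∈ F) → (S 0 σ).Nonempty →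
      ζ σ [] = dl β σ

/-- **A3** (`Good.cocL_ct`). -/
def A3Goal : Prop := ∀ (k : Type) [Field k] (B E : Type) [PseudoMetricSpace B]
  [PseudoMetricSpace E] (S : List B → Set E) (F : Finset B) (q : ℕ),
  (∀ (σ τ : List B), (∀ v ∈ τ, v ∈ σ) → S σ ⊆ S τ) →
  ∀ ζ : List B → List E → k, GoodA S F (q + 2) (q + 2) ζ → ∀ (A : Set B) (φ : B → B),
    (∀ x ∈ A, φ x ∈ F) →
    (∃ δ > 0, ∀ l : List B, l.length = q + 3 → SmL A δ l → (S (l.map φ)).Nonempty) →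
    CocL A (q + 1) fun l => ζ (l.map φ) []

/-- **A4** (`Good.exC`). -/
def A4Goal : Prop := ∀ (k : Type) [Field k] (B E : Type) [PseudoMetricSpace B]
  [PseudoMetricSpace E] (S : List B → Set E) (F : Finset B) (q : ℕ), 1 ≤ q →
  (∀ (σ τ : List B), (∀ v ∈ τ, v ∈ σ) → S σ ⊆ S τ) →
  ∀ ζ : List B → List E → k, GoodA S F (q + 2) (q + 2) ζ → ∀ (A : Set B) (φ : B → B),
    (∀ x ∈ A, φ x ∈ F) → ∀ (X : Set E) (s : E → B), (∀ w ∈ X, s w ∈ A) →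
    (∀ ε > 0, ∃ δ > 0, ∀ w ∈ X, ∀ w' ∈ X, dist w w' < δ → dist (s w) (s w') < ε) →
    (∃ δ > 0, ∀ w ∈ X, ∀ l : List E, (∀ w' ∈ l, w' ∈ X ∧ dist w w' < δ) →
      w ∈ S (l.map fun w' => φ (s w'))) →
    (∀ f : List E → k, CocL X q f → ExL X q f) → ExL A (q + 1) (fun l => ζ (l.map φ) []) →
    ∀ (x₁ : B) (O : Set E), φ x₁ = x₁ → O ⊆ X → (∀ w ∈ O, s w = x₁) → ExC O q (ζ [x₁])

/-! ### Geometry -/

/-- **H1** (heights). -/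
def H1Goal : Prop := ∀ (M : Type) [MetricSpace M] [CompactSpace M] (h : C(M, Circle)),
  (∀ b ∈ Xt h, ∀ t : ℝ, 0 ≤ t → ∀ w ∈ PF b.1 t,
    Lif h w t (ht h b w) b.2 ∧ ∀ x, Lif h w t x b.2 → ht h b w = x) ∧
  (∀ b ∈ Xt h, ∀ t : ℝ, 0 ≤ t → ContinuousOn (ht h b) (PF b.1 t)) ∧
  (∀ b ∈ Xt h, ∀ w, ∀ t : ℝ, 0 ≤ t → w ∈ PF b.1 t → st h b w ∈ Xt h) ∧
  (∀ a ∈ Xt h, ∀ v ∈ Xt h, ∀ b ∈ Xt h, ∀ s t : ℝ, 0 ≤ s → 0 ≤ t → ∀ c ∈ Pt h a v s,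
    ∀ w ∈ Pt h v b t, cat s c w ∈ Pt h a b (s + t)) ∧
  ∃ δ₀ > 0, ∀ x ∈ Xt h, ∀ y ∈ Xt h, dist x.1 y.1 ≤ δ₀ → |x.2 - y.2| ≤ 1 / 2 →
    |x.2 - y.2| ≤ 1 / 8

/-- **H3** (`exC_XS`). -/
def H3Goal : Prop := ∀ (M : Type) [MetricSpace M] [CompactSpace M] (ρ : ℝ), 0 < ρ →
  LS.UniqSeg M ρ → ∀ h : C(M, Circle), ∃ R > 0, ∀ b ∈ Xt h, ∀ σ : List (M × ℝ),
    (∀ v ∈ σ, v ∈ Xt h) → ∀ v ∈ σ, ∀ r t : ℝ, 0 ≤ r → r ≤ R → 0 ≤ t →
    ∀ (k : Type) [Field k] (m : ℕ) (f : List (ℝ →ᵇ M) → k),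
      CocL (XSt h b σ (2 * r) (t + 2 * R)) m f → ExC (Pt h v b (t + 2 * R)) m f →
      ExC (XSt h b σ r t) m f

/-- **H4** (a finite net of a slab). -/
def H4Goal : Prop := ∀ (M : Type) [MetricSpace M] [CompactSpace M] (ρ : ℝ), 0 < ρ →
  LS.UniqSeg M ρ → ∀ h : C(M, Circle), PI h → ∀ a ∈ Xt h, ∀ b ∈ Xt h, ∀ R r : ℝ, 0 < r →
    ∃ (F : Finset (M × ℝ)) (φ : M × ℝ → M × ℝ) (t₀ : ℝ), 0 ≤ t₀ ∧ (∀ v ∈ F, v ∈ Xt h) ∧ a ∈ F ∧
      φ a = a ∧ (∀ x ∈ Slb h R, φ x ∈ F ∧ dist x.1 (φ x).1 ≤ r ∧ |x.2 - (φ x).2| ≤ 1 / 8) ∧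
      ∀ x ∈ Slb h R, (Pt h x b t₀).Nonempty

/-- **H5** (simple connectivity). -/
def H5Goal : Prop := ∀ (M : Type) [MetricSpace M] [CompactSpace M] (ρ : ℝ), 0 < ρ →
  LS.UniqSeg M ρ → ∀ h : C(M, Circle), SimplyConnectedSpace (Xt h) → PI h

/-- **H6** (transport to the points of a finite set). -/
def H6Goal : Prop := ∀ (M : Type) [MetricSpace M] [CompactSpace M] (ρ : ℝ), 0 < ρ →
  LS.UniqSeg M ρ → ∀ h : C(M, Circle), PI h → ∃ R > 0, ∀ b ∈ Xt h, ∀ F : Finset (M × ℝ),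
    (∀ v ∈ F, v ∈ Xt h) → ∀ a ∈ F, ∀ C : ℝ, 0 ≤ C → ∃ T, C ≤ T ∧
    ∀ (k : Type) [Field k] (q : ℕ) (z : List (ℝ →ᵇ M) → k), CocL (Pt h a b T) q z →
      ∃ z₁ : M × ℝ → List (ℝ →ᵇ M) → k, (∀ v ∈ F, CocL (XSt h b [v] R C) q (z₁ v)) ∧
        (∀ v ∈ F, ∀ v' ∈ F, ExC (XSt h b [v, v'] (R / 2) C) q fun l => z₁ v' l - z₁ v l) ∧
        ExC (Pt h a b C) q fun l => z₁ a l - z l

/-- **H7** (vanishing over a tuple; `exC_low`). -/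
def H7Goal : Prop := ∀ (M : Type) [MetricSpace M] [CompactSpace M] (ρ : ℝ), 0 < ρ →
  LS.UniqSeg M ρ → ∀ h : C(M, Circle), PI h → ∃ R > 0, ∀ (k : Type) [Field k] (q : ℕ),
    (∀ j, 1 ≤ j → j < q → PLow k h j) → ∀ b ∈ Xt h, ∀ F : Finset (M × ℝ), (∀ v ∈ F, v ∈ Xt h) →
    ∀ r : ℝ, 0 ≤ r → r ≤ R → ∀ t : ℝ, 0 ≤ t → ∃ t', t ≤ t' ∧ ∀ m < q, ∀ σ : List (M × ℝ),
      σ ≠ [] → (∀ v ∈ σ, v ∈ F) → ∀ f : List (ℝ →ᵇ M) → k,
        CocL (XSt h b σ (2 * r) t') m f → ExC (XSt h b σ r t) m f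

/-- **H8** (the lifted path spaces and the null-homotopic loops). -/
def H8Goal : Prop := ∀ (M : Type) [MetricSpace M] [CompactSpace M] (h : C(M, Circle)), PI h →
  ∀ b ∈ Xt h, ∀ F : Finset (M × ℝ), (∀ v ∈ F, v ∈ Xt h) → ∀ t : ℝ, 0 ≤ t → ∃ T : ℕ,
    ∀ (k : Type) [Field k] (q : ℕ), 1 ≤ q → ∀ (N : ℕ) (U : List M → k), Nrm U →
      ExL (Om0 M b.1 T) q (H140.eta N U) → ∀ v ∈ F, ExL (Pt h v b t) q (H140.eta N U)

/-- **H9** (the ladder). -/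
def H9Goal : Prop := ∀ (M : Type) [MetricSpace M] [CompactSpace M] (ρ : ℝ), 0 < ρ →
  LS.UniqSeg M ρ → ∀ h : C(M, Circle), PI h → ∀ (k : Type) [Field k] (q : ℕ), 1 ≤ q →
    (∀ j, 1 ≤ j → j < q → PLow k h j) → NZ k h (q + 1) → PLow k h q

/-- **H10** (the last step). -/
def H10Goal : Prop := ∀ (M : Type) [MetricSpace M] [CompactSpace M] (ρ : ℝ), 0 < ρ →
  LS.UniqSeg M ρ → ∀ h : C(M, Circle), PI h → ∀ (k : Type) [Field k] (q : ℕ), 1 ≤ q →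
    (∀ j, 1 ≤ j → j < q → PLow k h j) → ∀ U : List M → k, Nrm U →
    CocL (univ : Set M) (q + 1) U → (∃ R, ¬ ExL (Slb h R) (q + 1) fun l => U (l.map Prod.fst)) →
    ∀ x : M, ∃ T N0 : ℕ, ∀ N ≥ N0, ¬ ExL (Om0 M x T) q (H140.eta N U)

/-- Z10 from the last rows. -/
theorem z10_of (h5 : H5Goal) (h9 : H9Goal) (h10 : H10Goal) : Z10Goal := by
  intro M _ _ _ ρ hρ hU h hS k _ q hq hNZ U nU cU hne x
  have hPI := h5 M ρ hρ hU h hS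
  have key : ∀ n, n < q → ∀ j, 1 ≤ j → j ≤ n → PLow k h j := by
    intro n
    induction n with
    | zero => intro _ j h1 h2; omega
    | succ n ih =>
      intro hn j h1 h2
      rcases h2.lt_or_eq with h3 | rfl
      · exact ih (by omega) j h1 (by omega)
      · exact h9 M ρ hρ hU h hPI k (n + 1) (by omega)
          (fun j hj hj' => ih (by omega) j hj (by omega)) (hNZ _ (by omega) (by omega))
  exact h10 M ρ hρ hU h hPI k q hq (fun j hj hj' => key (q - 1) (by omega) j hj (by omega)) U nU cU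
    hne x

end Vale.Agent.P216.B7
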